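import Mathlib

/-!
Almost constant kernel vectors of symmetric random sign matrices: probability at most `(1/2 + ε) ^ n`.

A vector is almost constant if it takes one value, possibly zero, outside a small set.
-/

namespace Vale.Agent.P160

open Finset

variable {n : ℕ}

/-- The symmetric sign matrix with upper triangle given by `f`. -/
def signMat (f : Sym2 (Fin n) → Bool) : Matrix (Fin n) (Fin n) ℝ :=
  Matrix.of fun i j => if f s(i, j) then 1 else -1

/-- Row `i` paired with the vectors that are constant outside `S`. -/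
lemma mulVec_eq (f : Sym2 (Fin n) → Bool) (S : Finset (Fin n)) (w : Fin n → ℝ) (c : ℝ)
    (hw : ∀ j, j ∉ S → w j = c) (i : Fin n) :
    (signMat f).mulVec w i = (∑ j : S, signMat f i j * w j) + (∑ j ∈ Sᶜ, signMat f i j) * c := by
  rw [Finset.sum_coe_sort S (fun j => signMat f i j * w j), Finset.sum_mul]
  simp only [Matrix.mulVec, dotProduct]
  rw [← Finset.sum_add_sum_compl S]
  refine congrArg _ (Finset.sum_congr rfl fun j hj => ?_)
  rw [hw j (Finset.mem_compl.1 hj)]

lemma exists_row_basis (f : Sym2 (Fin n) → Bool) (S : Finset (Fin n)) :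
    ∃ R : Finset (Fin n), R.card ≤ S.card + 1 ∧
      ∀ (w : Fin n → ℝ) (c : ℝ), (∀ j, j ∉ S → w j = c) →
        (∀ i ∈ R, (signMat f).mulVec w i = 0) → (signMat f).mulVec w = 0 := by
  classical
  let row : Fin n → (Option S → ℝ) := fun i o =>
    o.elim (∑ j ∈ Sᶜ, signMat f i j) (fun j => signMat f i j)
  obtain ⟨b, hb, hbspan, hbli⟩ := exists_linearIndependent ℝ (Set.range row)
  have : Fintype b := hbli.setFinite.fintype
  choose g hg using fun x : b => hb x.2
  refine ⟨Finset.univ.image g, ?_, fun w c hwS hwR => ?_⟩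
  · refine Finset.card_image_le.trans ?_
    rw [Finset.card_univ]
    simpa using hbli.fintype_card_le_finrank
  · let u : Option S → ℝ := fun o => o.elim c (fun j => w j)
    have hdot : ∀ i, (signMat f).mulVec w i = ∑ o, row i o * u o := by
      intro i
      rw [mulVec_eq f S w c hwS i, Fintype.sum_option, add_comm]
      rfl
    have hb0 : ∀ x ∈ Submodule.span ℝ b, ∑ o, x o * u o = 0 := by
      intro x hx
      induction hx using Submodule.span_induction with
      | mem x hx =>
        have := hwR (g ⟨x, hx⟩) (Finset.mem_image_of_mem _ (Finset.mem_univ _))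
        rwa [hdot, hg ⟨x, hx⟩] at this
      | zero => simp
      | add x y _ _ hx hy =>
        simp only [Pi.add_apply, add_mul, Finset.sum_add_distrib, hx, hy, add_zero]
      | smul a x _ hx =>
        simp only [Pi.smul_apply, smul_eq_mul, mul_assoc, ← Finset.mul_sum, hx, mul_zero]
    funext i
    rw [hdot]
    exact hb0 _ (hbspan ▸ Submodule.subset_span (Set.mem_range_self i))

/-- The normalised value outside the exceptional set. -/
def level (τ : Bool) : ℝ := if τ then 1 else 0

/-- Vectors equal to `level τ` outside `S`, killed by the rows in `R`. -/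
def Cand (τ : Bool) (S R : Finset (Fin n)) (f : Sym2 (Fin n) → Bool) (w : Fin n → ℝ) : Prop :=
  w ≠ 0 ∧ (∀ j, j ∉ S → w j = level τ) ∧ ∀ i ∈ R, (signMat f).mulVec w i = 0

open Classical in
/-- A choice of such a vector. -/
noncomputable def cand (τ : Bool) (S R : Finset (Fin n)) (f : Sym2 (Fin n) → Bool) : Fin n → ℝ :=
  if h : ∃ w, Cand τ S R f w then h.choose else 0

open Classical in
/-- Matrices annihilating the chosen vector outside `R ∪ S`. -/
noncomputable def event (τ : Bool) (S R : Finset (Fin n)) : Finset (Sym2 (Fin n) → Bool) :=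
  univ.filter fun f => cand τ S R f ≠ 0 ∧ (∀ j, j ∉ S → cand τ S R f j = level τ) ∧
    ∀ i, i ∉ R ∪ S → (signMat f).mulVec (cand τ S R f) i = 0

lemma cand_congr {τ : Bool} {S R : Finset (Fin n)} {f f' : Sym2 (Fin n) → Bool}
    (h : ∀ i ∈ R, ∀ j, τ = true ∨ j ∈ S → f s(i, j) = f' s(i, j)) : cand τ S R f = cand τ S R f' := by
  classical
  have hP : Cand τ S R f = Cand τ S R f' := by
    funext w
    refine propext ⟨fun hw => ⟨hw.1, hw.2.1, fun i hi => ?_⟩,
      fun hw => ⟨hw.1, hw.2.1, fun i hi => ?_⟩⟩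
    all_goals
      rw [← hw.2.2 i hi]
      simp only [Matrix.mulVec, dotProduct]
      refine Finset.sum_congr rfl fun j _ => ?_
      by_cases hj : τ = true ∨ j ∈ S
      · simp [signMat, h i hi j hj]
      · simp only [not_or, Bool.not_eq_true] at hj
        simp [hw.2.1 j hj.2, hj.1, level]
  simp only [cand, hP]

lemma card_event_le (τ : Bool) (S R : Finset (Fin n)) (b : Fin n)
    (hb : R ∪ S = univ ∨ b ∉ R ∪ S) :
    (event τ S R).card * 2 ^ n ≤
      Fintype.card (Sym2 (Fin n) → Bool) * 2 ^ (insert b (R ∪ S)).card := by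
  classical
  set T := insert b (R ∪ S) with hT
  let piv : (Fin n → ℝ) → Fin n := fun v =>
    if τ then b else if h : (univ.filter fun j => v j ≠ 0).Nonempty then
      (univ.filter fun j => v j ≠ 0).min' h else b
  let flipped : ((Sym2 (Fin n) → Bool) × Finset (Fin n)) → Sym2 (Fin n) → Bool := fun q e =>
    if ∃ i ∈ q.2, e = s(i, piv (cand τ S R q.1)) then !(q.1 e) else q.1 e
  have key : ∀ q ∈ event τ S R ×ˢ (Tᶜ).powerset,
      cand τ S R (flipped q) = cand τ S R q.1 ∧
      (∀ i, i ∈ q.2 ↔ i ∉ T ∧ (signMat (flipped q)).mulVec (cand τ S R q.1) i ≠ 0) := by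
    rintro ⟨f, W⟩ hq
    simp only [Finset.mem_product, event, Finset.mem_filter, Finset.mem_univ, true_and,
      Finset.mem_powerset] at hq
    obtain ⟨⟨hne, hsupp, hkill⟩, hW⟩ := hq
    have hkillT : ∀ i, i ∉ T → (signMat f).mulVec (cand τ S R f) i = 0 := fun i hi =>
      hkill i fun h => hi (Finset.mem_insert_of_mem h)
    set a := piv (cand τ S R f) with ha
    have hWT : ∀ i ∈ W, i ∉ T := fun i hi => by simpa using hW hi
    have haT : a ∈ T := by
      cases τ with
      | true => simp [a, piv, hT]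
      | false =>
        by_cases hne' : (univ.filter fun j => cand false S R f j ≠ 0).Nonempty
        · have hm := Finset.min'_mem _ hne'
          have hm' : cand false S R f a ≠ 0 := by
            simp only [a, piv, Bool.false_eq_true, if_false, dif_pos hne']
            exact (Finset.mem_filter.1 hm).2
          exact Finset.mem_insert_of_mem (Finset.mem_union_right _
            (by by_contra h; exact hm' (hsupp a h)))
        · simp [a, piv, dif_neg hne', hT]
    have hav : cand τ S R f a ≠ 0 ∨ W = ∅ := by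
      cases τ with
      | true =>
        rcases hb with hb | hb
        · refine Or.inr (Finset.eq_empty_iff_forall_notMem.2 fun i hi => hWT i hi ?_)
          simp [hT, hb]
        · left
          have : b ∉ S := fun h => hb (Finset.mem_union_right _ h)
          simp [a, piv, hsupp b this, level]
      | false =>
        left
        obtain ⟨j, hj⟩ := Function.ne_iff.1 hne
        have hne' : (univ.filter fun j => cand false S R f j ≠ 0).Nonempty := ⟨j, by simpa using hj⟩
        simp only [a, piv, Bool.false_eq_true, if_false, dif_pos hne']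
        exact (Finset.mem_filter.1 (Finset.min'_mem _ hne')).2
    have haR : ∀ i ∈ R, ∀ j, τ = true ∨ j ∈ S → ∀ i' ∈ W, s(i, j) ≠ s(i', a) := by
      intro i hi j hj i' hi' he
      rcases Sym2.eq_iff.1 he with ⟨rfl, -⟩ | ⟨hia, rfl⟩
      · exact hWT i hi' (Finset.mem_insert_of_mem (Finset.mem_union_left _ hi))
      · rcases hj with hτ | hj
        · rcases hb with hb | hb
          · exact hWT j hi' (by simp [hT, hb])
          · have : a = b := by simp [a, piv, hτ]
            exact hb (Finset.mem_union_left _ (this ▸ hia ▸ hi))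
        · exact hWT j hi' (Finset.mem_insert_of_mem (Finset.mem_union_right _ hj))
    have hfl : ∀ e, flipped (f, W) e = if ∃ i ∈ W, e = s(i, a) then !(f e) else f e := by
      intro e; simp only [flipped, ha]
    refine ⟨cand_congr fun i hi j hj => ?_, fun i => ?_⟩
    · rw [hfl, if_neg]
      rintro ⟨i', hi', he⟩
      exact haR i hi j hj i' hi' he
    · have hentry : ∀ i, i ∉ T → ∀ j, signMat (flipped (f, W)) i j * cand τ S R f j =
          signMat f i j * cand τ S R f j +
            if j = a ∧ i ∈ W then -2 * signMat f i a * cand τ S R f a else 0 := by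
        intro i hiT j
        have hiff : (∃ i' ∈ W, s(i, j) = s(i', a)) ↔ (j = a ∧ i ∈ W) := by
          constructor
          · rintro ⟨i', hi', he⟩
            rcases Sym2.eq_iff.1 he with ⟨rfl, rfl⟩ | ⟨rfl, -⟩
            · exact ⟨rfl, hi'⟩
            · exact absurd haT hiT
          · rintro ⟨rfl, hi⟩; exact ⟨i, hi, rfl⟩
        simp only [signMat, Matrix.of_apply, hfl, hiff]
        by_cases hc : j = a ∧ i ∈ W
        · obtain ⟨rfl, hi⟩ := hc
          cases hb' : f s(i, a) <;> simp [hi] <;> ring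
        · simp [hc]
      constructor
      · intro hi
        refine ⟨hWT i hi, ?_⟩
        have hav' : cand τ S R f a ≠ 0 := hav.resolve_right fun h => by simp [h] at hi
        have h0 := hkillT i (hWT i hi)
        simp only [Matrix.mulVec, dotProduct] at h0 ⊢
        simp only [hentry i (hWT i hi), Finset.sum_add_distrib, h0, zero_add, hi, and_true,
          Finset.sum_ite_eq', Finset.mem_univ, if_true]
        refine mul_ne_zero (mul_ne_zero (by norm_num) ?_) hav'
        simp only [signMat, Matrix.of_apply]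
        split <;> norm_num
      · rintro ⟨hiT, hne'⟩
        by_contra hi
        apply hne'
        have h0 := hkillT i hiT
        simp only [Matrix.mulVec, dotProduct] at h0 ⊢
        simp only [hentry i hiT, hi, and_false, if_false, add_zero]
        exact h0
  have hinj : Set.InjOn flipped ↑(event τ S R ×ˢ (Tᶜ).powerset) := by
    intro p hp q hq heq
    obtain ⟨hp1, hp2⟩ := key p hp
    obtain ⟨hq1, hq2⟩ := key q hq
    rw [heq] at hp1 hp2
    have hv : cand τ S R p.1 = cand τ S R q.1 := hp1.symm.trans hq1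
    have hW : p.2 = q.2 := by
      ext i; rw [hp2, hq2, hv]
    refine Prod.ext (funext fun e => ?_) hW
    have he := congrFun heq e
    simp only [flipped, hv, hW] at he
    split at he
    · exact Bool.not_inj he
    · exact he
  have h1 := Finset.card_le_card_of_injOn flipped (fun q _ => Finset.mem_univ (flipped q)) hinj
  rw [Finset.card_product, Finset.card_powerset, Finset.card_univ, Finset.card_compl,
    Fintype.card_fin] at h1
  calc (event τ S R).card * 2 ^ n
      = (event τ S R).card * 2 ^ (n - T.card) * 2 ^ T.card := by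
        rw [mul_assoc, ← pow_add, Nat.sub_add_cancel (by simpa using T.card_le_univ)]
    _ ≤ _ := Nat.mul_le_mul_right _ h1

open Classical in
theorem card_compressible_le (k : ℕ) :
    ((univ : Finset (Sym2 (Fin n) → Bool)).filter fun f => ∃ v : Fin n → ℝ, v ≠ 0 ∧
        (∃ c : ℝ, (univ.filter fun i => v i ≠ c).card ≤ k) ∧
        (signMat f).mulVec v = 0).card * 2 ^ n ≤
      2 * ((univ : Finset (Finset (Fin n))).filter fun S => S.card ≤ k + 1).card ^ 2 *
        2 ^ (2 * k + 2) * Fintype.card (Sym2 (Fin n) → Bool) := by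
  set small := (univ : Finset (Finset (Fin n))).filter fun S => S.card ≤ k + 1 with hsmall
  set sets := (univ : Finset Bool) ×ˢ
    (((univ : Finset (Finset (Fin n))).filter fun S => S.card ≤ k) ×ˢ small) with hsets
  rcases Nat.eq_zero_or_pos n with hn | hn
  · refine le_of_eq_of_le ?_ (Nat.zero_le _)
    rw [Nat.mul_eq_zero]
    refine Or.inl (Finset.card_eq_zero.2 (Finset.eq_empty_iff_forall_notMem.2 fun f hf => ?_))
    obtain ⟨v, hv, -⟩ := (Finset.mem_filter.1 hf).2
    exact hv (funext fun i => absurd i.isLt (by omega))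
  have hsub : ((univ : Finset (Sym2 (Fin n) → Bool)).filter fun f => ∃ v : Fin n → ℝ, v ≠ 0 ∧
      (∃ c : ℝ, (univ.filter fun i => v i ≠ c).card ≤ k) ∧ (signMat f).mulVec v = 0) ⊆
      sets.biUnion fun p => event p.1 p.2.1 p.2.2 := by
    intro f hf
    obtain ⟨v, hv0, ⟨c, hvk⟩, hvA⟩ := (Finset.mem_filter.1 hf).2
    set S := univ.filter fun i => v i ≠ c with hS
    obtain ⟨R, hR, hRkill⟩ := exists_row_basis f S
    have hex : ∃ τ : Bool, ∃ w, Cand τ S R f w := by
      rcases eq_or_ne c 0 with rfl | hc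
      · exact ⟨false, v, hv0, fun j hj => by simpa [hS, level] using hj,
          fun i _ => congrFun hvA i⟩
      · refine ⟨true, c⁻¹ • v, smul_ne_zero (inv_ne_zero hc) hv0, fun j hj => ?_, fun i _ => ?_⟩
        · have hj' : v j = c := by simpa [hS] using hj
          simp [level, hj', hc]
        · simp [Matrix.mulVec_smul, congrFun hvA i]
    obtain ⟨τ, hex⟩ := hex
    refine Finset.mem_biUnion.2 ⟨(τ, S, R), by simp [hsets, hsmall, hvk]; omega, ?_⟩
    have hw : Cand τ S R f (cand τ S R f) := by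
      simp only [cand, dif_pos hex]; exact hex.choose_spec
    simp only [event, Finset.mem_filter, Finset.mem_univ, true_and]
    exact ⟨hw.1, hw.2.1, fun i _ => congrFun (hRkill _ _ hw.2.1 hw.2.2) i⟩
  have hone : ∀ p ∈ sets, (event p.1 p.2.1 p.2.2).card * 2 ^ n ≤
      Fintype.card (Sym2 (Fin n) → Bool) * 2 ^ (2 * k + 2) := by
    rintro ⟨τ, S, R⟩ hp
    simp only [hsets, hsmall, Finset.mem_product, Finset.mem_filter, Finset.mem_univ,
      true_and] at hp
    obtain ⟨b, hb⟩ : ∃ b, R ∪ S = univ ∨ b ∉ R ∪ S := by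
      by_cases h : R ∪ S = univ
      · exact ⟨⟨0, hn⟩, Or.inl h⟩
      · obtain ⟨b, hb⟩ := not_forall.1 fun h' => h (Finset.eq_univ_of_forall h')
        exact ⟨b, Or.inr hb⟩
    refine (card_event_le τ S R b hb).trans (Nat.mul_le_mul_left _ ?_)
    refine Nat.pow_le_pow_right (by norm_num) ?_
    have := Finset.card_union_le R S
    exact (Finset.card_insert_le _ _).trans (by omega)
  have hmono : ((univ : Finset (Finset (Fin n))).filter fun S => S.card ≤ k).card ≤ small.card :=
    Finset.card_le_card fun S hS => by simp [hsmall] at hS ⊢; omega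
  calc _ ≤ (∑ p ∈ sets, (event p.1 p.2.1 p.2.2).card) * 2 ^ n :=
        Nat.mul_le_mul_right _ ((Finset.card_le_card hsub).trans Finset.card_biUnion_le)
    _ = ∑ p ∈ sets, (event p.1 p.2.1 p.2.2).card * 2 ^ n := Finset.sum_mul _ _ _
    _ ≤ ∑ _p ∈ sets, Fintype.card (Sym2 (Fin n) → Bool) * 2 ^ (2 * k + 2) :=
        Finset.sum_le_sum hone
    _ ≤ _ := by
      rw [Finset.sum_const, smul_eq_mul]
      simp only [hsets, Finset.card_product, Finset.card_univ, Fintype.card_bool]
      calc _ ≤ 2 * (small.card * small.card) *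
            (Fintype.card (Sym2 (Fin n) → Bool) * 2 ^ (2 * k + 2)) := by gcongr
        _ = _ := by ring

lemma card_small_mul_le (k : ℕ) {x : ℝ} (hx0 : 0 < x) (hx1 : x ≤ 1) :
    (((univ : Finset (Finset (Fin n))).filter fun S => S.card ≤ k).card : ℝ) * x ^ k ≤
      (1 + x) ^ n := by
  have h := Fintype.sum_pow_mul_eq_add_pow (Fin n) x 1
  simp only [one_pow, mul_one, Fintype.card_fin] at h
  rw [add_comm, ← h]
  calc _ = ∑ _S ∈ (univ : Finset (Finset (Fin n))).filter (fun S => S.card ≤ k), x ^ k := by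
        rw [Finset.sum_const, nsmul_eq_mul]
    _ ≤ ∑ S ∈ (univ : Finset (Finset (Fin n))).filter (fun S => S.card ≤ k), x ^ S.card :=
        Finset.sum_le_sum fun S hS => pow_le_pow_of_le_one hx0.le hx1 (Finset.mem_filter.1 hS).2
    _ ≤ _ := Finset.sum_le_sum_of_subset_of_nonneg (Finset.subset_univ _) fun S _ _ => by positivity

open Classical in
theorem compressible : ∀ ε : ℝ, 0 < ε → ∃ δ C : ℝ, 0 < δ ∧ 0 < C ∧ ∀ n : ℕ,
    (((Finset.univ : Finset (Sym2 (Fin n) → Bool)).filter fun f =>
      ∃ v : Fin n → ℝ, v ≠ 0 ∧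
        (∃ c : ℝ, ((Finset.univ.filter fun i => v i ≠ c).card : ℝ) ≤ δ * n) ∧
        (Matrix.of fun i j => if f s(i, j) then (1 : ℝ) else -1).mulVec v = 0).card : ℝ) /
      (Fintype.card (Sym2 (Fin n) → Bool) : ℝ) ≤ C * (1 / 2 + ε) ^ n := by
  intro ε hε
  set x : ℝ := min 1 (ε / 3) with hx
  have hx0 : 0 < x := lt_min one_pos (by linarith)
  have hx1 : x ≤ 1 := min_le_left _ _
  set a : ℝ := (1 + x) ^ 2 / 2 with ha
  set c : ℝ := (2 / x) ^ 2 with hc
  have hc1 : 1 ≤ c := one_le_pow₀ ((one_le_div hx0).2 (by linarith))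
  have hlt : a * c ^ (0 : ℝ) < 1 / 2 + ε := by
    rw [Real.rpow_zero, mul_one, ha]
    nlinarith [min_le_right 1 (ε / 3)]
  have hcont : ContinuousAt (fun d : ℝ => a * c ^ d) 0 :=
    continuousAt_const.mul (Real.continuousAt_const_rpow (by linarith))
  obtain ⟨η, hη, hball⟩ := Metric.mem_nhds_iff.1 (hcont.eventually_lt continuousAt_const hlt)
  refine ⟨η / 2, 2 * c, by linarith, by linarith, fun n => ?_⟩
  have hd : a * c ^ (η / 2) < 1 / 2 + ε := hball (by
    rw [Metric.mem_ball, dist_zero_right, Real.norm_eq_abs, abs_of_pos (by linarith)]; linarith)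
  set k : ℕ := ⌊η / 2 * n⌋₊
  have hk : (k : ℝ) ≤ η / 2 * n := Nat.floor_le (by positivity)
  set N : ℝ := (Fintype.card (Sym2 (Fin n) → Bool) : ℝ)
  have hN : 0 < N := Nat.cast_pos.2 Fintype.card_pos
  rw [div_le_iff₀ hN]
  set F := (Finset.univ : Finset (Sym2 (Fin n) → Bool)).filter fun f =>
      ∃ v : Fin n → ℝ, v ≠ 0 ∧
        (∃ c : ℝ, ((Finset.univ.filter fun i => v i ≠ c).card : ℝ) ≤ η / 2 * n) ∧
        (Matrix.of fun i j => if f s(i, j) then (1 : ℝ) else -1).mulVec v = 0
  have hF : F.card * 2 ^ n ≤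
      2 * ((univ : Finset (Finset (Fin n))).filter fun S => S.card ≤ k + 1).card ^ 2 *
        2 ^ (2 * k + 2) * Fintype.card (Sym2 (Fin n) → Bool) := by
    refine le_trans (Nat.mul_le_mul_right _ (Finset.card_le_card fun f hf => ?_))
      (card_compressible_le k)
    obtain ⟨v, h1, ⟨c', h2⟩, h3⟩ := (Finset.mem_filter.1 hf).2
    exact Finset.mem_filter.2 ⟨Finset.mem_univ _, v, h1, ⟨c', Nat.le_floor h2⟩, h3⟩
  set M : ℝ := (((univ : Finset (Finset (Fin n))).filter fun S => S.card ≤ k + 1).card : ℝ) with hMd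
  have hF' : (F.card : ℝ) * 2 ^ n ≤ 2 * M ^ 2 * 2 ^ (2 * k + 2) * N := by
    simp only [N, hMd]; exact_mod_cast hF
  have hs := card_small_mul_le (n := n) (k + 1) hx0 hx1
  have hck : c ^ k ≤ (c ^ (η / 2)) ^ n := by
    rw [← Real.rpow_natCast c k, ← Real.rpow_natCast (c ^ (η / 2)) n,
      ← Real.rpow_mul (by linarith)]
    exact Real.rpow_le_rpow_of_exponent_le hc1 hk
  have hM : M ^ 2 * 2 ^ (2 * k + 2) ≤ ((1 + x) ^ 2) ^ n * (c ^ k * c) := by
    have h2 : (M * x ^ (k + 1)) ^ 2 ≤ ((1 + x) ^ n) ^ 2 :=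
      pow_le_pow_left₀ (by positivity) hs 2
    have h3 : c ^ k * c = 2 ^ (2 * k + 2) / (x ^ (k + 1)) ^ 2 := by
      rw [← pow_succ, hc, div_pow, div_pow, ← pow_mul, ← pow_mul, ← pow_mul,
        mul_comm 2 (k + 1)]
      ring_nf
    rw [h3, mul_div_assoc', le_div_iff₀ (by positivity)]
    calc _ = (M * x ^ (k + 1)) ^ 2 * 2 ^ (2 * k + 2) := by ring
      _ ≤ ((1 + x) ^ n) ^ 2 * 2 ^ (2 * k + 2) := mul_le_mul_of_nonneg_right h2 (by positivity)
      _ = _ := by rw [← pow_mul (1 + x) n 2, mul_comm n 2, pow_mul]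
  refine le_of_mul_le_mul_right ?_ (show (0 : ℝ) < 2 ^ n by positivity)
  calc (F.card : ℝ) * 2 ^ n ≤ 2 * (((1 + x) ^ 2) ^ n * (c ^ k * c)) * N := by
        refine hF'.trans (mul_le_mul_of_nonneg_right ?_ hN.le)
        rw [mul_assoc]
        exact mul_le_mul_of_nonneg_left hM zero_le_two
    _ ≤ 2 * (((1 + x) ^ 2) ^ n * ((c ^ (η / 2)) ^ n * c)) * N := by gcongr
    _ = 2 * c * (a * c ^ (η / 2)) ^ n * N * 2 ^ n := by
        rw [ha, mul_pow, div_pow]; field_simp
    _ ≤ 2 * c * (1 / 2 + ε) ^ n * N * 2 ^ n := by gcongr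

end Vale.Agent.P160
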