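import Vale.Agent.P160.Compressible
import Mathlib

/-!
Kernel vectors of symmetric random sign matrices with few distinct values.

A kernel vector of this kind is pinned down by few rows. A block of entries outside these rows is
independent of it, and each row of the block hits a prescribed value with small probability.
-/

namespace Vale.Agent.P160

open Finset

variable {n : ℕ}

lemma centralBinom_sq_le : ∀ k : ℕ, k.centralBinom ^ 2 * (2 * k + 1) ≤ 4 ^ (2 * k)
  | 0 => by simp
  | k + 1 => by
    have ih := centralBinom_sq_le k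
    have hs := Nat.succ_mul_centralBinom_succ k
    refine Nat.le_of_mul_le_mul_left ?_ (show 0 < (k + 1) ^ 2 by positivity)
    calc (k + 1) ^ 2 * ((k + 1).centralBinom ^ 2 * (2 * (k + 1) + 1))
        = ((k + 1) * (k + 1).centralBinom) ^ 2 * (2 * k + 3) := by ring
      _ = (4 * ((2 * k + 1) * (2 * k + 3))) * (k.centralBinom ^ 2 * (2 * k + 1)) := by
          rw [hs]; ring
      _ ≤ (16 * (k + 1) ^ 2) * 4 ^ (2 * k) := Nat.mul_le_mul (by nlinarith) ih
      _ = _ := by rw [show 2 * (k + 1) = 2 * k + 2 by ring, pow_add]; ring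

/-- The middle binomial coefficient. -/
lemma choose_half_sq_le (m : ℕ) : m.choose (m / 2) ^ 2 * (m + 1) ≤ 4 ^ m := by
  rcases Nat.even_or_odd' m with ⟨k, rfl | rfl⟩
  · rw [Nat.mul_div_cancel_left k two_pos]
    simpa [Nat.centralBinom_eq_two_mul_choose] using centralBinom_sq_le k
  · have h := centralBinom_sq_le (k + 1)
    have e : (k + 1).centralBinom = 2 * (2 * k + 1).choose k := by
      rw [Nat.centralBinom_eq_two_mul_choose, show 2 * (k + 1) = (2 * k + 1) + 1 by ring,
        Nat.choose_succ_succ', Nat.choose_symm_half]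
      ring
    rw [show (2 * k + 1) / 2 = k by omega]
    rw [e, show 2 * (k + 1) = (2 * k + 1) + 1 by ring, pow_succ 4] at h
    nlinarith

/-- Erdős's form of the Littlewood–Offord inequality. -/
lemma sign_sum_card_le (m : ℕ) (u : Fin m → ℝ) (hu : ∀ j, u j ≠ 0) (t : ℝ) :
    ((univ : Finset (Fin m → Bool)).filter fun z =>
        ∑ j, (if z j then (1 : ℝ) else -1) * u j = t).card ≤ m.choose (m / 2) := by
  classical
  let φ : (Fin m → Bool) → Finset (Fin m) := fun z => univ.filter fun j => z j = decide (0 < u j)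
  have hval : ∀ z, ∑ j, (if z j then (1 : ℝ) else -1) * u j =
      2 * (∑ j ∈ φ z, |u j|) - ∑ j, |u j| := by
    intro z
    rw [Finset.sum_filter, Finset.mul_sum, ← Finset.sum_sub_distrib]
    refine Finset.sum_congr rfl fun j _ => ?_
    rcases lt_or_gt_of_ne (hu j) with h | h
    · rw [abs_of_neg h, decide_eq_false h.not_gt]
      cases z j <;> simp <;> ring
    · rw [abs_of_pos h, decide_eq_true h]
      cases z j <;> simp <;> ring
  have hinj : Function.Injective φ := by
    intro z z' h
    funext j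
    have := Finset.ext_iff.1 h j
    simp only [φ, Finset.mem_filter, Finset.mem_univ, true_and] at this
    cases hz : z j <;> cases hz' : z' j <;> cases hd : decide (0 < u j) <;>
      simp_all
  rw [← Finset.card_image_of_injective _ hinj]
  refine le_of_le_of_eq (IsAntichain.sperner ?_) (by rw [Fintype.card_fin])
  intro A hA B hB hne hsub
  simp only [Finset.coe_image, Set.mem_image, Finset.mem_coe, Finset.mem_filter,
    Finset.mem_univ, true_and] at hA hB
  obtain ⟨z, hz, rfl⟩ := hA
  obtain ⟨z', hz', rfl⟩ := hB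
  obtain ⟨j, hj, hj'⟩ := Finset.exists_of_ssubset (lt_of_le_of_ne hsub hne)
  have hlt : ∑ j ∈ φ z, |u j| < ∑ j ∈ φ z', |u j| :=
    Finset.sum_lt_sum_of_subset hsub hj hj' (abs_pos.2 (hu j)) fun j _ _ => abs_nonneg _
  rw [hval] at hz hz'
  linarith

open Classical in
/-- Some block of `r` rows and `m` columns avoiding `R`, with columns in the support of `v`. -/
lemma exists_block (R : Finset (Fin n)) (v : Fin n → ℝ) (m r : ℕ)
    (hr : R.card + m + r = n) :
    ∃ (ei : Fin r → Fin n) (ej : Fin m → Fin n),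
      m ≤ (Rᶜ.filter fun j => v j ≠ 0).card →
        Function.Injective ei ∧ Function.Injective ej ∧ (∀ a b, ei a ≠ ej b) ∧
          (∀ a, ei a ∉ R) ∧ ∀ b, ej b ∉ R ∧ v (ej b) ≠ 0 := by
  by_cases h : m ≤ (Rᶜ.filter fun j => v j ≠ 0).card
  · obtain ⟨J, hJ, hJm⟩ := Finset.exists_subset_card_eq h
    have hJR : J ⊆ Rᶜ := hJ.trans (Finset.filter_subset _ _)
    have hI : (Rᶜ \ J).card = r := by
      rw [Finset.card_sdiff_of_subset hJR, Finset.card_compl, Fintype.card_fin]; omega
    refine ⟨(Rᶜ \ J).orderEmbOfFin hI, J.orderEmbOfFin hJm, fun _ =>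
      ⟨(RelEmbedding.injective _), (RelEmbedding.injective _), fun a b he => ?_,
        fun a => ?_, fun b => ?_⟩⟩
    · have ha := Finset.orderEmbOfFin_mem (Rᶜ \ J) hI a
      rw [he] at ha
      exact (Finset.mem_sdiff.1 ha).2 (Finset.orderEmbOfFin_mem J hJm b)
    · exact Finset.mem_compl.1 (Finset.mem_sdiff.1 (Finset.orderEmbOfFin_mem _ hI a)).1
    · have hb := Finset.mem_filter.1 (hJ (Finset.orderEmbOfFin_mem J hJm b))
      exact ⟨Finset.mem_compl.1 hb.1, hb.2⟩
  · exact ⟨fun a => ⟨0, by omega⟩, fun b => ⟨0, by omega⟩, fun h' => absurd h' h⟩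

open Classical in
/-- If a vector depends only on the rows in `R` and has `m` nonzero entries outside `R`, then it
is killed by the remaining rows with probability at most `(binom m (m/2) / 2 ^ m) ^ r`. -/
lemma card_killed_le (R : Finset (Fin n)) (m r : ℕ) (hr : R.card + m + r = n)
    (v : (Sym2 (Fin n) → Bool) → Fin n → ℝ)
    (hv : ∀ f f', (∀ i ∈ R, ∀ j, f s(i, j) = f' s(i, j)) → v f = v f') :
    ((univ : Finset (Sym2 (Fin n) → Bool)).filter fun f =>
        m ≤ (Rᶜ.filter fun j => v f j ≠ 0).card ∧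
          ∀ i, i ∉ R → (signMat f).mulVec (v f) i = 0).card * (2 ^ m) ^ r ≤
      Fintype.card (Sym2 (Fin n) → Bool) * m.choose (m / 2) ^ r := by
  choose ei ej hblock using fun w : Fin n → ℝ => exists_block R w m r hr
  set E := (univ : Finset (Sym2 (Fin n) → Bool)).filter fun f =>
      m ≤ (Rᶜ.filter fun j => v f j ≠ 0).card ∧ ∀ i, i ∉ R → (signMat f).mulVec (v f) i = 0
    with hE
  let ovr : (Fin n → ℝ) → (Sym2 (Fin n) → Bool) → (Fin r → Fin m → Bool) →
      Sym2 (Fin n) → Bool := fun w f W e =>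
    if h : ∃ q : Fin r × Fin m, e = s(ei w q.1, ej w q.2) then W h.choose.1 h.choose.2 else f e
  let block : (Fin n → ℝ) → (Sym2 (Fin n) → Bool) → Fin r → Fin m → Bool :=
    fun w f a b => f s(ei w a, ej w b)
  let Good : (Fin n → ℝ) → Prop := fun w => m ≤ (Rᶜ.filter fun j => w j ≠ 0).card
  have hinjq : ∀ w, Good w → ∀ a a' b b', s(ei w a, ej w b) = s(ei w a', ej w b') →
      a = a' ∧ b = b' := by
    intro w hw a a' b b' he
    obtain ⟨h1, h2, h3, -⟩ := hblock w hw
    rcases Sym2.eq_iff.1 he with ⟨x, y⟩ | ⟨x, -⟩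
    · exact ⟨h1 x, h2 y⟩
    · exact absurd x (h3 a b')
  have hover : ∀ w, Good w → ∀ f W a b, ovr w f W s(ei w a, ej w b) = W a b := by
    intro w hw f W a b
    have h : ∃ q : Fin r × Fin m, s(ei w a, ej w b) = s(ei w q.1, ej w q.2) := ⟨(a, b), rfl⟩
    obtain ⟨h1, h2⟩ := hinjq w hw _ _ _ _ h.choose_spec
    simp only [ovr, dif_pos h, ← h1, ← h2]
  have hvover : ∀ w, Good w → ∀ f W, v (ovr w f W) = v f := by
    intro w hw f W
    refine hv _ _ fun i hi j => ?_
    simp only [ovr]
    rw [dif_neg]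
    rintro ⟨⟨a, b⟩, he⟩
    obtain ⟨-, -, -, h4, h5⟩ := hblock w hw
    rcases Sym2.eq_iff.1 he with ⟨x, -⟩ | ⟨x, -⟩
    · exact h4 a (x ▸ hi)
    · exact (h5 b).1 (x ▸ hi)
  let Φ : (Sym2 (Fin n) → Bool) × (Fin r → Fin m → Bool) →
      (_g : Sym2 (Fin n) → Bool) × (Fin r → Fin m → Bool) :=
    fun q => ⟨ovr (v q.1) q.1 q.2, block (v q.1) q.1⟩
  let fib : (Sym2 (Fin n) → Bool) → Finset (Fin r → Fin m → Bool) := fun g =>
    univ.filter fun W => Good (v g) ∧
      ∀ a, (signMat (ovr (v g) g W)).mulVec (v g) (ei (v g) a) = 0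
  have hrecover : ∀ f, Good (v f) → ∀ W, ovr (v f) (ovr (v f) f W) (block (v f) f) = f := by
    intro f hw W
    funext e
    by_cases h : ∃ q : Fin r × Fin m, e = s(ei (v f) q.1, ej (v f) q.2)
    · obtain ⟨⟨a, b⟩, rfl⟩ := h
      rw [hover _ hw]
    · simp only [ovr, dif_neg h]
  have hmaps : Set.MapsTo Φ ↑(E ×ˢ (univ : Finset (Fin r → Fin m → Bool)))
      ↑((univ : Finset (Sym2 (Fin n) → Bool)).sigma fib) := by
    rintro ⟨f, W⟩ hq
    simp only [hE, Finset.mem_coe, Finset.mem_product, Finset.mem_filter, Finset.mem_univ,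
      true_and, and_true] at hq
    simp only [Finset.mem_coe, Finset.mem_sigma, Finset.mem_univ, true_and, Φ, fib,
      Finset.mem_filter, hvover _ hq.1, hrecover f hq.1]
    exact ⟨hq.1, fun a => hq.2 _ ((hblock _ hq.1).2.2.2.1 a)⟩
  have hinj : Set.InjOn Φ ↑(E ×ˢ (univ : Finset (Fin r → Fin m → Bool))) := by
    rintro ⟨f, W⟩ hp ⟨f', W'⟩ hq heq
    simp only [hE, Finset.mem_coe, Finset.mem_product, Finset.mem_filter, Finset.mem_univ,
      true_and, and_true] at hp hq
    simp only [Φ, Sigma.mk.injEq, heq_eq_eq] at heq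
    have hw : v f = v f' := by
      rw [← hvover _ hp.1 f W, heq.1, hvover _ hq.1]
    have hf : f = f' := by
      rw [← hrecover f hp.1 W, ← hrecover f' hq.1 W', heq.1, heq.2, hw]
    subst hf
    refine Prod.ext rfl (funext fun a => funext fun b => ?_)
    have := congrFun heq.1 s(ei (v f) a, ej (v f) b)
    rwa [hover _ hp.1, hover _ hp.1] at this
  have hfib : ∀ g, (fib g).card ≤ m.choose (m / 2) ^ r := by
    intro g
    by_cases hw : Good (v g)
    swap
    · simp [fib, hw]
    obtain ⟨h1, h2, h3, -, h5⟩ := hblock (v g) hw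
    set rest : Fin r → ℝ := fun a =>
      ∑ j ∈ (univ.image (ej (v g)))ᶜ, signMat g (ei (v g) a) j * v g j
    have hrow : ∀ W a, (signMat (ovr (v g) g W)).mulVec (v g) (ei (v g) a) =
        (∑ b, (if W a b then (1 : ℝ) else -1) * v g (ej (v g) b)) + rest a := by
      intro W a
      simp only [Matrix.mulVec, dotProduct]
      rw [← Finset.sum_add_sum_compl (univ.image (ej (v g))),
        Finset.sum_image fun x _ y _ h => h2 h]
      refine congrArg₂ _ (Finset.sum_congr rfl fun b _ => ?_) (Finset.sum_congr rfl fun j hj => ?_)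
      · simp only [signMat, Matrix.of_apply, hover _ hw]
      · have hne : ¬∃ q : Fin r × Fin m,
            s(ei (v g) a, j) = s(ei (v g) q.1, ej (v g) q.2) := by
          rintro ⟨⟨a', b'⟩, he⟩
          rcases Sym2.eq_iff.1 he with ⟨-, x⟩ | ⟨x, -⟩
          · exact Finset.mem_compl.1 hj (Finset.mem_image.2 ⟨b', Finset.mem_univ _, x.symm⟩)
          · exact h3 a b' x
        simp only [signMat, Matrix.of_apply, ovr, dif_neg hne]
    calc (fib g).card ≤ (Fintype.piFinset fun a => univ.filter fun z : Fin m → Bool =>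
          ∑ b, (if z b then (1 : ℝ) else -1) * v g (ej (v g) b) = -rest a).card := by
          refine Finset.card_le_card fun W hW => Fintype.mem_piFinset.2 fun a => ?_
          have := (Finset.mem_filter.1 hW).2.2 a
          rw [hrow] at this
          exact Finset.mem_filter.2 ⟨Finset.mem_univ _, eq_neg_of_add_eq_zero_left this⟩
      _ ≤ _ := by
          rw [Fintype.card_piFinset]
          refine (Finset.prod_le_prod' fun a _ =>
            sign_sum_card_le m (fun b => v g (ej (v g) b)) (fun b => (h5 b).2) _).trans (le_of_eq ?_)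
          simp
  calc E.card * (2 ^ m) ^ r
      = (E ×ˢ (univ : Finset (Fin r → Fin m → Bool))).card := by simp
    _ ≤ ((univ : Finset (Sym2 (Fin n) → Bool)).sigma fib).card :=
        Finset.card_le_card_of_injOn Φ hmaps hinj
    _ ≤ _ := by
        rw [Finset.card_sigma]
        refine (Finset.sum_le_sum fun g _ => hfib g).trans (le_of_eq ?_)
        simp

/-- The vector with coordinates `u` on `S` and one value on each class of `π` elsewhere. -/
def spread {K : ℕ} (S : Finset (Fin n)) (π : Fin n → Fin K) (u : S ⊕ Fin K → ℝ) : Fin n → ℝ :=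
  fun j => if h : j ∈ S then u (Sum.inl ⟨j, h⟩) else u (Sum.inr (π j))

lemma exists_rows {K : ℕ} (f : Sym2 (Fin n) → Bool) (S : Finset (Fin n)) (π : Fin n → Fin K) :
    ∃ R : Finset (Fin n), R.card ≤ S.card + K ∧
      ∀ u, (∀ i ∈ R, (signMat f).mulVec (spread S π u) i = 0) →
        (signMat f).mulVec (spread S π u) = 0 := by
  classical
  let idx : Fin n → S ⊕ Fin K := fun j => if h : j ∈ S then Sum.inl ⟨j, h⟩ else Sum.inr (π j)
  have hspread : ∀ u j, spread S π u j = u (idx j) := by
    intro u j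
    simp only [spread, idx]
    split <;> rfl
  let row : Fin n → (S ⊕ Fin K → ℝ) := fun i o => ∑ j, if idx j = o then signMat f i j else 0
  have hdot : ∀ u i, (signMat f).mulVec (spread S π u) i = ∑ o, row i o * u o := by
    intro u i
    simp only [row, Finset.sum_mul, ite_mul, zero_mul, Matrix.mulVec, dotProduct, hspread]
    rw [Finset.sum_comm]
    exact Finset.sum_congr rfl fun j _ => by rw [Finset.sum_ite_eq]; simp
  obtain ⟨b, hb, hbspan, hbli⟩ := exists_linearIndependent ℝ (Set.range row)
  have : Fintype b := hbli.setFinite.fintype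
  choose g hg using fun x : b => hb x.2
  refine ⟨Finset.univ.image g, ?_, fun u hu => ?_⟩
  · refine Finset.card_image_le.trans ?_
    rw [Finset.card_univ]
    simpa using hbli.fintype_card_le_finrank
  · have hb0 : ∀ x ∈ Submodule.span ℝ b, ∑ o, x o * u o = 0 := by
      intro x hx
      induction hx using Submodule.span_induction with
      | mem x hx =>
        have := hu (g ⟨x, hx⟩) (Finset.mem_image_of_mem _ (Finset.mem_univ _))
        rwa [hdot, hg ⟨x, hx⟩] at this
      | zero => simp
      | add x y _ _ hx hy =>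
        simp only [Pi.add_apply, add_mul, Finset.sum_add_distrib, hx, hy, add_zero]
      | smul a x _ hx =>
        simp only [Pi.smul_apply, smul_eq_mul, mul_assoc, ← Finset.mul_sum, hx, mul_zero]
    funext i
    rw [hdot]
    exact hb0 _ (hbspan ▸ Submodule.subset_span (Set.mem_range_self i))

open Classical in
/-- Kernel vectors with more than `d + m` nonzero entries which are spread from at most `d`
parameters. -/
theorem card_structured_le (K k m d : ℕ) (hd : k + K ≤ d) (hdn : d + m ≤ n) :
    (((univ : Finset (Sym2 (Fin n) → Bool)).filter fun f =>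
        ∃ (S : Finset (Fin n)) (π : Fin n → Fin K) (u : S ⊕ Fin K → ℝ), S.card ≤ k ∧
          d + m ≤ (univ.filter fun j => spread S π u j ≠ 0).card ∧
          (signMat f).mulVec (spread S π u) = 0).card : ℝ) ≤
      (4 * K : ℝ) ^ n * Fintype.card (Sym2 (Fin n) → Bool) *
        (1 / Real.sqrt (m + 1)) ^ (n - d - m) := by
  let Cand : Finset (Fin n) → (Fin n → Fin K) → Finset (Fin n) → (Sym2 (Fin n) → Bool) →
      (Fin n → ℝ) → Prop := fun S π R f w => (∃ u, w = spread S π u) ∧
    m ≤ (Rᶜ.filter fun j => w j ≠ 0).card ∧ ∀ i ∈ R, (signMat f).mulVec w i = 0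
  let vec : Finset (Fin n) → (Fin n → Fin K) → Finset (Fin n) → (Sym2 (Fin n) → Bool) →
      Fin n → ℝ := fun S π R f => if h : ∃ w, Cand S π R f w then h.choose else 0
  let ev : Finset (Fin n) × (Fin n → Fin K) × Finset (Fin n) →
      Finset (Sym2 (Fin n) → Bool) := fun p =>
    univ.filter fun f => m ≤ (p.2.2ᶜ.filter fun j => vec p.1 p.2.1 p.2.2 f j ≠ 0).card ∧
      ∀ i, i ∉ p.2.2 → (signMat f).mulVec (vec p.1 p.2.1 p.2.2 f) i = 0
  set P := (univ : Finset (Finset (Fin n) × (Fin n → Fin K) × Finset (Fin n))).filter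
    fun p => p.2.2.card ≤ d with hP
  have hsub : ((univ : Finset (Sym2 (Fin n) → Bool)).filter fun f =>
        ∃ (S : Finset (Fin n)) (π : Fin n → Fin K) (u : S ⊕ Fin K → ℝ), S.card ≤ k ∧
          d + m ≤ (univ.filter fun j => spread S π u j ≠ 0).card ∧
          (signMat f).mulVec (spread S π u) = 0) ⊆ P.biUnion ev := by
    intro f hf
    obtain ⟨S, π, u, hS, hnz, hA⟩ := (Finset.mem_filter.1 hf).2
    obtain ⟨R, hR, hkill⟩ := exists_rows f S π
    refine Finset.mem_biUnion.2 ⟨(S, π, R), by simp [hP]; omega, ?_⟩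
    have hex : ∃ w, Cand S π R f w := by
      refine ⟨spread S π u, ⟨u, rfl⟩, ?_, fun i _ => congrFun hA i⟩
      have h1 : (univ.filter fun j => spread S π u j ≠ 0) ⊆
          (Rᶜ.filter fun j => spread S π u j ≠ 0) ∪ R := by
        intro j hj
        simp only [Finset.mem_filter, Finset.mem_univ, true_and] at hj
        simp only [Finset.mem_union, Finset.mem_filter, Finset.mem_compl]
        tauto
      have := (Finset.card_le_card h1).trans (Finset.card_union_le _ _)
      omega
    have hw : Cand S π R f (vec S π R f) := by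
      simp only [vec, dif_pos hex]; exact hex.choose_spec
    refine Finset.mem_filter.2 ⟨Finset.mem_univ _, hw.2.1, fun i _ => ?_⟩
    obtain ⟨u', hu'⟩ := hw.1
    have h0 := hw.2.2
    rw [hu'] at h0 ⊢
    exact congrFun (hkill u' h0) i
  have hone : ∀ p ∈ P, ((ev p).card : ℝ) ≤
      Fintype.card (Sym2 (Fin n) → Bool) * (1 / Real.sqrt (m + 1)) ^ (n - d - m) := by
    rintro ⟨S, π, R⟩ hp
    have hR : R.card ≤ d := (Finset.mem_filter.1 hp).2
    have hcongr : ∀ f f', (∀ i ∈ R, ∀ j, f s(i, j) = f' s(i, j)) → vec S π R f = vec S π R f' := by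
      intro f f' h
      have hC : Cand S π R f = Cand S π R f' := by
        funext w
        have hi : ∀ i ∈ R, (signMat f).mulVec w i = (signMat f').mulVec w i := fun i hi => by
          simp only [Matrix.mulVec, dotProduct]
          exact Finset.sum_congr rfl fun j _ => by simp [signMat, h i hi j]
        exact propext (and_congr_right fun _ => and_congr_right fun _ =>
          forall₂_congr fun i h' => by rw [hi i h'])
      simp only [vec, hC]
    set r := n - R.card - m
    have key : ((ev (S, π, R)).card : ℝ) * (2 ^ m) ^ r ≤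
        Fintype.card (Sym2 (Fin n) → Bool) * (m.choose (m / 2) : ℝ) ^ r := by
      exact_mod_cast card_killed_le R m r (by omega) (vec S π R) hcongr
    set x : ℝ := 1 / Real.sqrt (m + 1) with hxdef
    have hx0 : 0 ≤ x := by positivity
    have hx1 : x ≤ 1 := by
      rw [hxdef, div_le_one (by positivity)]
      exact Real.one_le_sqrt.2 (by simp)
    have hc : (m.choose (m / 2) : ℝ) ≤ x * 2 ^ m := by
      rw [hxdef, div_mul_eq_mul_div, le_div_iff₀ (by positivity), one_mul]
      refine le_of_pow_le_pow_left₀ two_ne_zero (by positivity) ?_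
      rw [mul_pow, Real.sq_sqrt (by positivity), ← pow_mul, mul_comm m 2, pow_mul]
      exact_mod_cast choose_half_sq_le m
    have h2 : ((ev (S, π, R)).card : ℝ) ≤ Fintype.card (Sym2 (Fin n) → Bool) * x ^ r := by
      refine le_of_mul_le_mul_right (key.trans ?_) (show (0 : ℝ) < (2 ^ m) ^ r by positivity)
      rw [mul_assoc, ← mul_pow]
      gcongr
    exact h2.trans (mul_le_mul_of_nonneg_left
      (pow_le_pow_of_le_one hx0 hx1 (by omega)) (by positivity))
  have hPc : (P.card : ℝ) ≤ (4 * K : ℝ) ^ n := by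
    have : P.card ≤ 2 ^ n * (K ^ n * 2 ^ n) := (Finset.card_le_univ P).trans (le_of_eq (by simp))
    refine (Nat.cast_le.2 this).trans (le_of_eq ?_)
    push_cast
    rw [show (4 : ℝ) = 2 * 2 by norm_num, mul_pow, mul_pow]; ring
  calc _ ≤ ((P.biUnion ev).card : ℝ) := Nat.cast_le.2 (Finset.card_le_card hsub)
    _ ≤ ∑ p ∈ P, ((ev p).card : ℝ) := by exact_mod_cast Finset.card_biUnion_le
    _ ≤ P.card * (Fintype.card (Sym2 (Fin n) → Bool) *
        (1 / Real.sqrt (m + 1)) ^ (n - d - m)) := by
        rw [← nsmul_eq_mul, ← Finset.sum_const]; exact Finset.sum_le_sum hone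
    _ ≤ _ := by
        rw [mul_assoc]
        exact mul_le_mul_of_nonneg_right hPc (by positivity)

end Vale.Agent.P160
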